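import Vale.Agent.P262.Ehr.Phi

open MeasureTheory ProbabilityTheory Set Filter Topology

namespace Vale.Agent.P262.H733

/-- The standard Gaussian measure on `Fin k → ℝ`. -/
noncomputable abbrev G (k : ℕ) : Measure (Fin k → ℝ) := Measure.pi fun _ : Fin k => gaussianReal 0 1

theorem pi_withDensity' {ι : Type*} [Fintype ι] {X : ι → Type*} [∀ i, MeasurableSpace (X i)]
    (μ : ∀ i, Measure (X i)) [∀ i, SigmaFinite (μ i)] (f : ∀ i, X i → ℝ)
    (h0 : ∀ i x, 0 ≤ f i x) (hi : ∀ i, Integrable (f i) (μ i)) :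
    (Measure.pi fun i => (μ i).withDensity fun x => ENNReal.ofReal (f i x))
      = (Measure.pi μ).withDensity fun y => ENNReal.ofReal (∏ i, f i (y i)) := by
  have hsf : ∀ i, IsFiniteMeasure ((μ i).withDensity fun x => ENNReal.ofReal (f i x)) := fun i =>
    isFiniteMeasure_withDensity_ofReal (hi i).2
  refine Measure.pi_eq fun s hs => ?_
  rw [withDensity_apply _ (MeasurableSet.univ_pi hs), Measure.restrict_pi_pi,
    ← ofReal_integral_eq_lintegral_ofReal, integral_fintype_prod_eq_prod,
    ENNReal.ofReal_prod_of_nonneg]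
  · refine Finset.prod_congr rfl fun i _ => ?_
    rw [withDensity_apply _ (hs i), ← ofReal_integral_eq_lintegral_ofReal]
    · exact (hi i).restrict
    · exact ae_of_all _ (h0 i)
  · exact fun i _ => integral_nonneg (h0 i)
  · exact Integrable.fintype_prod_dep fun i => (hi i).restrict
  · exact ae_of_all _ fun y => Finset.prod_nonneg fun i _ => h0 i _

/-- One factor of the density of `N(0, (1-e)⁻¹)` with respect to `N(0,1)`. -/
noncomputable def rho1 (e x : ℝ) : ℝ := √(1 - e) * Real.exp (e * x ^ 2 / 2)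

lemma rho1_nonneg (e x : ℝ) : 0 ≤ rho1 e x := by unfold rho1; positivity

lemma pdf_mul_rho1 {e : ℝ} (he : e < 1) (x : ℝ) :
    gaussianPDFReal 0 1 x * rho1 e x
      = gaussianPDFReal 0 (.mk (((√(1 - e))⁻¹) ^ 2) (sq_nonneg _) * 1) x := by
  have h1 : 0 < 1 - e := by linarith
  have h2 : ((NNReal.mk (((√(1 - e))⁻¹) ^ 2) (sq_nonneg _) * 1 : NNReal) : ℝ) = (1 - e)⁻¹ := by
    rw [mul_one, NNReal.coe_mk, inv_pow, Real.sq_sqrt h1.le]
  unfold gaussianPDFReal rho1
  rw [h2]
  have h3 : √(2 * Real.pi * (1 - e)⁻¹) = √(2 * Real.pi) * (√(1 - e))⁻¹ := by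
    rw [Real.sqrt_mul (by positivity), Real.sqrt_inv]
  rw [h3]
  have h4 : 0 < √(1 - e) := Real.sqrt_pos.mpr h1
  have h5 : 0 < √(2 * Real.pi) := Real.sqrt_pos.mpr (by positivity)
  have h6 : Real.exp (-(x - 0) ^ 2 / (2 * (1 - e)⁻¹))
      = Real.exp (-(x - 0) ^ 2 / (2 * ((1 : NNReal) : ℝ))) * Real.exp (e * x ^ 2 / 2) := by
    rw [← Real.exp_add]
    congr 1
    simp only [NNReal.coe_one]
    field_simp
    ring
  rw [h6]
  simp only [NNReal.coe_one, mul_one, mul_inv, inv_inv]
  ring

lemma measurable_rho1 (e : ℝ) : Measurable (rho1 e) := by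
  unfold rho1
  fun_prop

lemma map_scale_one {e : ℝ} (he : e < 1) :
    (gaussianReal 0 1).map (fun x => (√(1 - e))⁻¹ * x)
      = (gaussianReal 0 1).withDensity fun x => ENNReal.ofReal (rho1 e x) := by
  have h1 : 0 < 1 - e := by linarith
  have hv : (NNReal.mk (((√(1 - e))⁻¹) ^ 2) (sq_nonneg _) * 1 : NNReal) ≠ 0 := by
    rw [mul_one]
    intro h
    have := congrArg NNReal.toReal h
    simp only [NNReal.coe_mk, NNReal.coe_zero] at this
    have h4 : 0 < √(1 - e) := Real.sqrt_pos.mpr h1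
    have : 0 < ((√(1 - e))⁻¹) ^ 2 := by positivity
    linarith
  rw [gaussianReal_map_const_mul, mul_zero, gaussianReal_of_var_ne_zero _ hv,
    gaussianReal_of_var_ne_zero _ one_ne_zero, gaussianPDF_def, gaussianPDF_def,
    ← withDensity_mul _ (measurable_gaussianPDFReal 0 1).ennreal_ofReal
      (measurable_rho1 e).ennreal_ofReal]
  congr 1
  funext x
  rw [Pi.mul_apply, ← ENNReal.ofReal_mul (gaussianPDFReal_nonneg _ _ _), pdf_mul_rho1 he]

lemma integrable_rho1 {e : ℝ} (he : e < 1) : Integrable (rho1 e) (gaussianReal 0 1) := by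
  have h : IsProbabilityMeasure ((gaussianReal 0 1).withDensity
      fun x => ENNReal.ofReal (rho1 e x)) := by
    rw [← map_scale_one he]
    exact Measure.isProbabilityMeasure_map (by fun_prop)
  refine ⟨(measurable_rho1 e).aestronglyMeasurable, ?_⟩
  have h2 : ∫⁻ x, ENNReal.ofReal (rho1 e x) ∂(gaussianReal 0 1) = 1 := by
    have := h.measure_univ
    rwa [withDensity_apply _ MeasurableSet.univ, Measure.restrict_univ] at this
  rw [hasFiniteIntegral_iff_ofReal (ae_of_all _ (rho1_nonneg e)), h2]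
  exact ENNReal.one_lt_top

/-- The density of `N(0, diag (1-e)⁻¹)` with respect to the standard Gaussian measure. -/
noncomputable def R {k : ℕ} (e x : Fin k → ℝ) : ℝ := ∏ i, rho1 (e i) (x i)

lemma R_nonneg {k : ℕ} (e x : Fin k → ℝ) : 0 ≤ R e x :=
  Finset.prod_nonneg fun _ _ => rho1_nonneg _ _

lemma measurable_R {k : ℕ} (e : Fin k → ℝ) : Measurable (R e) := by
  unfold R
  exact Finset.measurable_prod _ fun i _ => (measurable_rho1 _).comp (measurable_pi_apply i)

/-- Scaling of coordinates. -/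
noncomputable def T {k : ℕ} (e z : Fin k → ℝ) : Fin k → ℝ := fun i => (√(1 - e i))⁻¹ * z i

lemma measurable_T {k : ℕ} (e : Fin k → ℝ) : Measurable (T e) := by
  unfold T
  fun_prop

lemma map_T {k : ℕ} (e : Fin k → ℝ) (he : ∀ i, e i < 1) :
    (G k).map (T e) = (G k).withDensity fun x => ENNReal.ofReal (R e x) := by
  have h1 := Measure.pi_map_pi (μ := fun _ : Fin k => gaussianReal 0 1)
    (f := fun i x => (√(1 - e i))⁻¹ * x) (fun i => by fun_prop)
  have h2 : (fun x : Fin k → ℝ => fun i => (√(1 - e i))⁻¹ * x i) = T e := rfl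
  rw [G, ← h2, h1]
  have h3 : (fun i => (gaussianReal 0 1).map fun x => (√(1 - e i))⁻¹ * x)
      = fun i => (gaussianReal 0 1).withDensity fun x => ENNReal.ofReal (rho1 (e i) x) := by
    funext i
    exact map_scale_one (he i)
  rw [h3]
  exact pi_withDensity' (fun _ : Fin k => gaussianReal 0 1) (fun i => rho1 (e i))
    (fun i x => rho1_nonneg _ _) fun i => integrable_rho1 (he i)

lemma integral_T {k : ℕ} (e : Fin k → ℝ) (he : ∀ i, e i < 1) {f : (Fin k → ℝ) → ℝ}
    (hf : Measurable f) :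
    ∫ z, f (T e z) ∂(G k) = ∫ x, R e x * f x ∂(G k) := by
  rw [← integral_map (measurable_T e).aemeasurable hf.aestronglyMeasurable, map_T e he,
    integral_withDensity_eq_integral_toReal_smul (measurable_R e).ennreal_ofReal
      (ae_of_all _ fun _ => ENNReal.ofReal_lt_top)]
  refine integral_congr_ae (ae_of_all _ fun x => ?_)
  simp only [ENNReal.toReal_ofReal (R_nonneg e x), smul_eq_mul]

lemma integrable_T {k : ℕ} (e : Fin k → ℝ) (he : ∀ i, e i < 1) {f : (Fin k → ℝ) → ℝ}
    (hf : Measurable f) :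
    Integrable (fun z => f (T e z)) (G k) ↔ Integrable (fun x => R e x * f x) (G k) := by
  have h1 := integrable_map_measure (μ := G k) (f := T e) (g := f) hf.aestronglyMeasurable
    (measurable_T e).aemeasurable
  rw [map_T e he, integrable_withDensity_iff_integrable_smul' (measurable_R e).ennreal_ofReal
      (ae_of_all _ fun _ => ENNReal.ofReal_lt_top)] at h1
  have h2 : (fun x => (ENNReal.ofReal (R e x)).toReal • f x) = fun x => R e x * f x := by
    funext x
    rw [ENNReal.toReal_ofReal (R_nonneg e x), smul_eq_mul]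
  rw [h2] at h1
  exact h1.symm

end Vale.Agent.P262.H733
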