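import Vale.Agent.P262.H733.Deriv

open MeasureTheory ProbabilityTheory Set Filter Topology
open Vale.Agent.P262.Ehr

namespace Vale.Agent.P262.H733

/-- The inequality (S) of the proof, for one function `w`, one diagonal matrix `al` and one
constant `c`. -/
def SIneq {k : ℕ} (w : (Fin k → ℝ) → ℝ) (al : Fin k → ℝ) (c : ℝ) : Prop :=
  2 * ∫ z, √(∑ i, (al i * z i) ^ 2) * phi (w z) ∂(G k)
    ≤ ∫ z, w z * phi (w z) ∂(G k)
      + ∫ z, Phi (w z) * (∑ i, al i ^ 2 - ∑ i, (al i * z i) ^ 2) ∂(G k)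
      + 2 * c * ∫ z, phi (w z) ∂(G k)

lemma measurable_W {k : ℕ} (d : Fin k → ℝ) (δ L ε : ℝ) {n : (Fin k → ℝ) → ℝ} (hn : Measurable n)
    (v : ℝ) : Measurable (W d δ L ε n v) := by
  unfold W
  exact ((hn.sub ((measurable_psi d δ).const_mul (1 - v))).add_const _).div_const _

lemma integrable_R_mul {k : ℕ} {d : Fin k → ℝ} {v q : ℝ} (h0 : ∀ i, 0 ≤ v * d i)
    (h1 : ∀ i, v * d i ≤ q) (hq : q < 1) {f : (Fin k → ℝ) → ℝ} (hf : Measurable f) {C : ℝ}
    (hC : ∀ x, |f x| ≤ C * (1 + S x)) :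
    Integrable (fun x => R (fun i => v * d i) x * f x) (G k) := by
  refine ((integrable_poly_exp (k := k) hq).const_mul C).mono'
    ((measurable_R _).mul hf).aestronglyMeasurable (ae_of_all _ fun x => ?_)
  rw [Real.norm_eq_abs, abs_mul, abs_of_nonneg (R_nonneg _ _)]
  calc R (fun i => v * d i) x * |f x| ≤ Real.exp (q / 2 * S x) * (C * (1 + S x)) :=
        mul_le_mul (R_le h0 h1 hq x) (hC x) (abs_nonneg _) (Real.exp_nonneg _)
    _ = C * ((1 + S x) * Real.exp (q / 2 * S x)) := by ring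

/-- The path functional. -/
noncomputable def P {k : ℕ} (d : Fin k → ℝ) (δ L ε : ℝ) (n : (Fin k → ℝ) → ℝ) (v : ℝ) : ℝ :=
  ∫ x, R (fun i => v * d i) x * Phi (W d δ L ε n v x) ∂(G k)

lemma measurable_S {k : ℕ} : Measurable (fun x : Fin k → ℝ => S x) := by
  unfold S
  fun_prop

lemma mul_le_q {k : ℕ} {d : Fin k → ℝ} {D v : ℝ} (hD : ∀ i, d i ≤ D) (hD0 : 0 ≤ D) (hv : 0 ≤ v)
    (hv' : v < 1 + (1 - D) / 2) (i : Fin k) : v * d i ≤ (1 + D) / 2 := by
  have h1 : v * d i ≤ v * D := by gcongr; exact hD i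
  have h2 : v * D ≤ (1 + (1 - D) / 2) * D := by gcongr
  nlinarith [sq_nonneg (1 - D)]

lemma hasDerivAt_P {k : ℕ} {d : Fin k → ℝ} {δ L ε D v0 : ℝ} {n : (Fin k → ℝ) → ℝ}
    (hn : Measurable n) (hd0 : ∀ i, 0 ≤ d i) (hD : ∀ i, d i ≤ D) (hD0 : 0 ≤ D) (hD1 : D < 1)
    (hL : 0 ≤ L) (hε : 0 ≤ ε) (hv0 : 0 < v0) (hv1 : v0 ≤ 1) :
    HasDerivAt (P d δ L ε n) (∫ x, F' d δ L ε n v0 x ∂(G k)) v0 := by
  have hs : Ioo (v0 / 2) (1 + (1 - D) / 2) ∈ 𝓝 v0 := Ioo_mem_nhds (by linarith) (by linarith)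
  have hq1 : (1 + D) / 2 < 1 := by linarith
  have hmF : ∀ v, Measurable (fun x => R (fun i => v * d i) x * Phi (W d δ L ε n v x)) :=
    fun v => (measurable_R _).mul (Phi_continuous.measurable.comp (measurable_W d δ L ε hn v))
  have hmF' : Measurable (F' d δ L ε n v0) := by
    unfold F'
    have hW := measurable_W d δ L ε hn v0
    have hW' : Measurable (W' d δ L ε n v0) := by
      unfold W'
      exact ((hW.sub ((measurable_psi d δ).const_mul _)).add_const _).const_mul _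
    have h1 : Measurable (fun x : Fin k → ℝ =>
        1 / 2 * (∑ i, d i * x i ^ 2 - ∑ i, d i / (1 - v0 * d i))) := by fun_prop
    exact (((measurable_R _).mul h1).mul (Phi_continuous.measurable.comp hW)).add
      ((measurable_R _).mul ((phi_continuous.measurable.comp hW).mul hW'))
  refine (hasDerivAt_integral_of_dominated_loc_of_deriv_le
    (F := fun v x => R (fun i => v * d i) x * Phi (W d δ L ε n v x)) (F' := F' d δ L ε n)
    (bound := fun x => (1 / 2 * (1 + k * (1 / (1 - (1 + D) / 2)))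
        + 1 / v0 * (1 + 4 * (2 + δ ^ 2) + 4 * (L * (v0 / 2) ^ (-(1 / 6) : ℝ) + ε)))
        * ((1 + S x) * Real.exp ((1 + D) / 2 / 2 * S x)))
    hs (Eventually.of_forall fun v => (hmF v).aestronglyMeasurable) ?_
    hmF'.aestronglyMeasurable (ae_of_all _ fun x v hv => ?_)
    ((integrable_poly_exp hq1).const_mul _) (ae_of_all _ fun x v hv => ?_)).2
  · refine integrable_R_mul (C := 1) (fun i => mul_nonneg hv0.le (hd0 i))
      (fun i => mul_le_q hD hD0 hv0.le (by linarith) i) hq1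
      (Phi_continuous.measurable.comp (measurable_W d δ L ε hn v0)) fun x => ?_
    rw [abs_of_nonneg (Phi_nonneg _)]
    have := S_nonneg x
    linarith [(Phi_lt_one (W d δ L ε n v0 x)).le]
  · exact abs_F'_le hd0 hD hD0 hD1 hL hε hv0 hv.1 hv.2 x
  · have hvp : 0 < v := by linarith [hv.1]
    exact hasDerivAt_F d δ L ε n hvp
      (fun i => lt_of_le_of_lt (mul_le_q hD hD0 hvp.le hv.2 i) hq1) x

lemma R_pos {k : ℕ} {e : Fin k → ℝ} (he : ∀ i, e i < 1) (x : Fin k → ℝ) : 0 < R e x := by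
  unfold R rho1
  refine Finset.prod_pos fun i _ => ?_
  have : 0 < √(1 - e i) := Real.sqrt_pos.mpr (by linarith [he i])
  positivity

lemma psi_le_add {k : ℕ} {d : Fin k → ℝ} (h0 : ∀ i, 0 ≤ d i) {δ : ℝ} (hδ : 0 ≤ δ)
    (x : Fin k → ℝ) : psi d δ x ≤ psi d 0 x + δ := by
  unfold psi
  have h3 : 0 ≤ ∑ i, d i * x i ^ 2 :=
    Finset.sum_nonneg fun i _ => mul_nonneg (h0 i) (sq_nonneg _)
  have h4 := Real.sqrt_nonneg (0 ^ 2 + ∑ i, d i * x i ^ 2)
  have h5 : √(0 ^ 2 + ∑ i, d i * x i ^ 2) ^ 2 = 0 ^ 2 + ∑ i, d i * x i ^ 2 :=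
    Real.sq_sqrt (by positivity)
  rw [Real.sqrt_le_left (by positivity)]
  nlinarith [mul_nonneg hδ h4]

lemma measurable_F' {k : ℕ} (d : Fin k → ℝ) (δ L ε v0 : ℝ) {n : (Fin k → ℝ) → ℝ}
    (hn : Measurable n) : Measurable (F' d δ L ε n v0) := by
  unfold F'
  have hW := measurable_W d δ L ε hn v0
  have hW' : Measurable (W' d δ L ε n v0) := by
    unfold W'
    exact ((hW.sub ((measurable_psi d δ).const_mul _)).add_const _).const_mul _
  have h1 : Measurable (fun x : Fin k → ℝ =>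
      1 / 2 * (∑ i, d i * x i ^ 2 - ∑ i, d i / (1 - v0 * d i))) := by fun_prop
  exact (((measurable_R _).mul h1).mul (Phi_continuous.measurable.comp hW)).add
    ((measurable_R _).mul ((phi_continuous.measurable.comp hW).mul hW'))

lemma integrable_F' {k : ℕ} {d : Fin k → ℝ} {δ L ε D v : ℝ} {n : (Fin k → ℝ) → ℝ}
    (hn : Measurable n) (hd0 : ∀ i, 0 ≤ d i) (hD : ∀ i, d i ≤ D) (hD0 : 0 ≤ D) (hD1 : D < 1)
    (hL : 0 ≤ L) (hε : 0 ≤ ε) (hv0 : 0 < v) (hv1 : v ≤ 1) :
    Integrable (F' d δ L ε n v) (G k) := by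
  have hq1 : (1 + D) / 2 < 1 := by linarith
  refine ((integrable_poly_exp (k := k) hq1).const_mul
    (1 / 2 * (1 + k * (1 / (1 - (1 + D) / 2)))
      + 1 / v * (1 + 4 * (2 + δ ^ 2) + 4 * (L * (v / 2) ^ (-(1 / 6) : ℝ) + ε)))).mono'
    (measurable_F' d δ L ε v hn).aestronglyMeasurable (ae_of_all _ fun x => ?_)
  rw [Real.norm_eq_abs]
  exact abs_F'_le hd0 hD hD0 hD1 hL hε hv0 (by linarith) (by linarith) x

lemma deriv_neg {k : ℕ} {d : Fin k → ℝ} {δ L ε D v : ℝ} {n : (Fin k → ℝ) → ℝ}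
    (hn : Measurable n) (hd0 : ∀ i, 0 ≤ d i) (hD : ∀ i, d i ≤ D) (hD0 : 0 ≤ D) (hD1 : D < 1)
    (hL : 0 ≤ L) (hδ : 0 ≤ δ) (hε : δ < ε) (hv0 : 0 < v) (hv1 : v ≤ 1)
    (hS : SIneq (fun z => W d δ L ε n v (T (fun i => v * d i) z))
      (fun i => √(v * d i / (1 - v * d i))) (L * v ^ (1 / 3 : ℝ))) :
    ∫ x, F' d δ L ε n v x ∂(G k) < 0 := by
  have hq1 : (1 + D) / 2 < 1 := by linarith
  have hq : ∀ i, v * d i ≤ (1 + D) / 2 := mul_le_q hD hD0 hv0.le (by linarith)
  have he : ∀ i, v * d i < 1 := fun i => lt_of_le_of_lt (hq i) hq1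
  have he0 : ∀ i, 0 ≤ v * d i := fun i => mul_nonneg hv0.le (hd0 i)
  have hW := measurable_W d δ L ε hn v
  set w := W d δ L ε n v with hw
  have hs0 : 0 ≤ √v := Real.sqrt_nonneg v
  have hs1 : √v ≤ 1 := by rw [Real.sqrt_le_left zero_le_one]; linarith
  -- the four integrands
  set f1 : (Fin k → ℝ) → ℝ := fun x => √v * psi d 0 x * phi (w x) with hf1
  set f2 : (Fin k → ℝ) → ℝ := fun x => w x * phi (w x) with hf2
  set sa : ℝ := ∑ i, √(v * d i / (1 - v * d i)) ^ 2 with hsa
  set f3 : (Fin k → ℝ) → ℝ := fun x => Phi (w x) * (sa - ∑ i, v * d i * x i ^ 2) with hf3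
  set f4 : (Fin k → ℝ) → ℝ := fun x => phi (w x) with hf4
  have m4 : Measurable f4 := phi_continuous.measurable.comp hW
  have m1 : Measurable f1 := ((measurable_psi d 0).const_mul _).mul m4
  have m2 : Measurable f2 := hW.mul m4
  have m3 : Measurable f3 := by
    refine (Phi_continuous.measurable.comp hW).mul ?_
    fun_prop
  have hsa' : sa = v * ∑ i, d i / (1 - v * d i) := by
    rw [hsa, Finset.mul_sum]
    refine Finset.sum_congr rfl fun i _ => ?_
    rw [Real.sq_sqrt (div_nonneg (he0 i) (by linarith [he i]))]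
    ring
  have hsa0 : 0 ≤ sa := Finset.sum_nonneg fun i _ => sq_nonneg _
  -- integrability
  have i1 : Integrable (fun x => R (fun i => v * d i) x * f1 x) (G k) := by
    refine integrable_R_mul (C := 1) he0 hq hq1 m1 fun x => ?_
    have h1 := psi_nonneg d 0 x
    have h2 := psi_le hd0 (fun i => (hD i).trans hD1.le) 0 x
    have h3 : 0 ≤ phi (w x) := (phi_pos _).le
    have h4 := phi_le_one (w x)
    rw [hf1]
    simp only
    rw [abs_of_nonneg (by positivity)]
    have h5 := S_nonneg x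
    calc √v * psi d 0 x * phi (w x) ≤ 1 * (1 + 0 ^ 2 + S x) * 1 := by gcongr
      _ = 1 * (1 + S x) := by ring
  have i2 : Integrable (fun x => R (fun i => v * d i) x * f2 x) (G k) := by
    refine integrable_R_mul (C := 1) he0 hq hq1 m2 fun x => ?_
    have h1 := abs_mul_phi_le_one (w x)
    have h2 := S_nonneg x
    rw [hf2]
    simp only
    rw [abs_mul, abs_of_nonneg (phi_pos (w x)).le]
    linarith
  have i3 : Integrable (fun x => R (fun i => v * d i) x * f3 x) (G k) := by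
    refine integrable_R_mul (C := sa + 1) he0 hq hq1 m3 fun x => ?_
    have h1 : 0 ≤ ∑ i, v * d i * x i ^ 2 :=
      Finset.sum_nonneg fun i _ => mul_nonneg (he0 i) (sq_nonneg _)
    have h2 : ∑ i, v * d i * x i ^ 2 ≤ S x := Finset.sum_le_sum fun i _ => by
      nlinarith [sq_nonneg (x i), he i, he0 i]
    have hS' := S_nonneg x
    rw [hf3]
    simp only
    rw [abs_mul, abs_of_nonneg (Phi_nonneg _)]
    have h3 : |sa - ∑ i, v * d i * x i ^ 2| ≤ sa + S x := by
      rw [abs_le]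
      constructor <;> linarith
    calc Phi (w x) * |sa - ∑ i, v * d i * x i ^ 2| ≤ 1 * (sa + S x) := by
          gcongr
          exact (Phi_lt_one _).le
      _ ≤ (sa + 1) * (1 + S x) := by nlinarith [mul_nonneg hsa0 hS']
  have i4 : Integrable (fun x => R (fun i => v * d i) x * f4 x) (G k) := by
    refine integrable_R_mul (C := 1) he0 hq hq1 m4 fun x => ?_
    rw [hf4]
    simp only
    rw [abs_of_nonneg (phi_pos (w x)).le]
    have h2 := S_nonneg x
    linarith [phi_le_one (w x)]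
  -- the hypothesis in the coordinates `x`
  have key : ∀ z : Fin k → ℝ, ∑ i, (√(v * d i / (1 - v * d i)) * z i) ^ 2
      = ∑ i, v * d i * (T (fun i => v * d i) z i) ^ 2 := by
    intro z
    refine Finset.sum_congr rfl fun i _ => ?_
    have h1 : 0 < 1 - v * d i := by linarith [he i]
    unfold T
    rw [mul_pow, mul_pow, Real.sq_sqrt (div_nonneg (he0 i) h1.le), inv_pow, Real.sq_sqrt h1.le]
    ring
  have key2 : ∀ z : Fin k → ℝ, √(∑ i, (√(v * d i / (1 - v * d i)) * z i) ^ 2)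
      = √v * psi d 0 (T (fun i => v * d i) z) := by
    intro z
    rw [key z]
    unfold psi
    rw [← Real.sqrt_mul hv0.le]
    congr 1
    rw [mul_add, Finset.mul_sum]
    have h0 : v * (0 : ℝ) ^ 2 = 0 := by ring
    rw [h0, zero_add]
    refine Finset.sum_congr rfl fun i _ => ?_
    ring
  unfold SIneq at hS
  have c1 : ∫ z, √(∑ i, (√(v * d i / (1 - v * d i)) * z i) ^ 2)
        * phi (w (T (fun i => v * d i) z)) ∂(G k)
      = ∫ x, R (fun i => v * d i) x * f1 x ∂(G k) := by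
    rw [← integral_T (fun i => v * d i) he m1]
    refine integral_congr_ae (ae_of_all _ fun z => ?_)
    simp only [hf1]
    rw [key2 z]
  have c2 : ∫ z, w (T (fun i => v * d i) z) * phi (w (T (fun i => v * d i) z)) ∂(G k)
      = ∫ x, R (fun i => v * d i) x * f2 x ∂(G k) := by
    rw [← integral_T (fun i => v * d i) he m2]
  have c3 : ∫ z, Phi (w (T (fun i => v * d i) z))
        * (∑ i, √(v * d i / (1 - v * d i)) ^ 2
          - ∑ i, (√(v * d i / (1 - v * d i)) * z i) ^ 2) ∂(G k)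
      = ∫ x, R (fun i => v * d i) x * f3 x ∂(G k) := by
    rw [← integral_T (fun i => v * d i) he m3]
    refine integral_congr_ae (ae_of_all _ fun z => ?_)
    simp only [hf3]
    rw [key z]
  have c4 : ∫ z, phi (w (T (fun i => v * d i) z)) ∂(G k)
      = ∫ x, R (fun i => v * d i) x * f4 x ∂(G k) := by
    rw [← integral_T (fun i => v * d i) he m4]
  rw [c1, c2, c3, c4] at hS
  set A1 := ∫ x, R (fun i => v * d i) x * f1 x ∂(G k)
  set A2 := ∫ x, R (fun i => v * d i) x * f2 x ∂(G k)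
  set A3 := ∫ x, R (fun i => v * d i) x * f3 x ∂(G k)
  set A4 := ∫ x, R (fun i => v * d i) x * f4 x ∂(G k) with hA4
  have hA4pos : 0 < A4 := by
    rw [hA4, integral_pos_iff_support_of_nonneg (fun x => mul_nonneg (R_nonneg _ _)
      (phi_pos _).le) i4]
    have : Function.support (fun x => R (fun i => v * d i) x * f4 x) = univ := by
      refine eq_univ_of_forall fun x => ?_
      exact (mul_pos (R_pos he x) (phi_pos _)).ne'
    rw [this, measure_univ]
    exact zero_lt_one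
  -- pointwise upper bound for `F'`
  have hpow : √v * v ^ (-(1 / 6) : ℝ) = v ^ (1 / 3 : ℝ) := by
    rw [Real.sqrt_eq_rpow, ← Real.rpow_add hv0]
    norm_num
  have hpt : ∀ x, F' d δ L ε n v x ≤ -(1 / (2 * v)) * (R (fun i => v * d i) x * f3 x
      + R (fun i => v * d i) x * f2 x - 2 * (R (fun i => v * d i) x * f1 x)
      + (2 * (L * v ^ (1 / 3 : ℝ)) + 2 * √v * (ε - δ)) * (R (fun i => v * d i) x * f4 x)) := by
    intro x
    have h1 : 0 < R (fun i => v * d i) x := R_pos he x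
    have h2 := psi_le_add hd0 hδ x
    have h3 : 0 < phi (w x) := phi_pos _
    have e1 : R (fun i => v * d i) x * (1 / 2 * (∑ i, d i * x i ^ 2 - ∑ i, d i / (1 - v * d i)))
          * Phi (w x)
        = -(1 / (2 * v)) * (R (fun i => v * d i) x * f3 x) := by
      simp only [hf3]
      rw [hsa']
      have : ∑ i, v * d i * x i ^ 2 = v * ∑ i, d i * x i ^ 2 := by
        rw [Finset.mul_sum]
        refine Finset.sum_congr rfl fun i _ => ?_
        ring
      rw [this]
      field_simp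
      ring
    unfold F'
    rw [← hw, e1]
    unfold W'
    rw [← hw]
    have e2 : 2 * √v * (L * v ^ (-(1 / 6) : ℝ) + ε)
        = 2 * (L * v ^ (1 / 3 : ℝ)) + 2 * √v * ε := by
      rw [← hpow]
      ring
    rw [e2]
    have e3 : 0 ≤ 1 / (2 * v) := by positivity
    have e4 : 0 ≤ 1 / (2 * v) * (R (fun i => v * d i) x * phi (w x)
        * (2 * √v * (psi d 0 x + δ - psi d δ x))) := by
      have : 0 ≤ psi d 0 x + δ - psi d δ x := by linarith
      positivity
    simp only [hf1, hf2, hf4]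
    nlinarith [e4]
  have hint : Integrable (fun x => -(1 / (2 * v)) * (R (fun i => v * d i) x * f3 x
      + R (fun i => v * d i) x * f2 x - 2 * (R (fun i => v * d i) x * f1 x)
      + (2 * (L * v ^ (1 / 3 : ℝ)) + 2 * √v * (ε - δ)) * (R (fun i => v * d i) x * f4 x)))
      (G k) :=
    ((((i3.add i2).sub (i1.const_mul 2)).add (i4.const_mul _))).const_mul _
  have hle : ∫ x, F' d δ L ε n v x ∂(G k) ≤ -(1 / (2 * v)) * (A3 + A2 - 2 * A1
      + (2 * (L * v ^ (1 / 3 : ℝ)) + 2 * √v * (ε - δ)) * A4) := by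
    by_cases hF : Integrable (F' d δ L ε n v) (G k)
    · refine (integral_mono hF hint hpt).trans (le_of_eq ?_)
      have a1 : Integrable (fun x => R (fun i => v * d i) x * f3 x
        + R (fun i => v * d i) x * f2 x) (G k) := i3.add i2
      have a2 : Integrable (fun x => R (fun i => v * d i) x * f3 x
        + R (fun i => v * d i) x * f2 x - 2 * (R (fun i => v * d i) x * f1 x)) (G k) :=
        a1.sub (i1.const_mul 2)
      have a3 : Integrable (fun x => (2 * (L * v ^ (1 / 3 : ℝ)) + 2 * √v * (ε - δ))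
        * (R (fun i => v * d i) x * f4 x)) (G k) := i4.const_mul _
      rw [integral_const_mul, integral_add a2 a3, integral_sub a1 (i1.const_mul 2),
        integral_add i3 i2, integral_const_mul, integral_const_mul]
    · exact absurd (integrable_F' hn hd0 hD hD0 hD1 hL (by linarith) hv0 hv1) hF
  refine lt_of_le_of_lt hle ?_
  have hsv : 0 < √v := Real.sqrt_pos.mpr hv0
  have h5 : 0 < 2 * √v * (ε - δ) * A4 := by
    have : 0 < ε - δ := by linarith
    positivity
  have h6 : 0 < 1 / (2 * v) := by positivity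
  have h7 : 0 < A3 + A2 - 2 * A1 + (2 * (L * v ^ (1 / 3 : ℝ)) + 2 * √v * (ε - δ)) * A4 := by
    nlinarith
  have h8 := mul_pos h6 h7
  linarith

end Vale.Agent.P262.H733
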