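import Vale.Agent.P262.H733.Path

open MeasureTheory ProbabilityTheory Set Filter Topology
open Vale.Agent.P262.Ehr

namespace Vale.Agent.P262.H733

lemma phi_eq (t : ℝ) : phi t = (√(2 * Real.pi))⁻¹ * Real.exp (-t ^ 2 / 2) := by
  unfold phi gaussianPDFReal
  simp

lemma inv_sqrt_le_one : (√(2 * Real.pi))⁻¹ ≤ 1 := by
  apply inv_le_one_of_one_le₀
  rw [Real.one_le_sqrt]
  nlinarith [Real.pi_gt_three]

lemma phi_le_one (t : ℝ) : phi t ≤ 1 := by
  rw [phi_eq]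
  have h1 : Real.exp (-t ^ 2 / 2) ≤ 1 := Real.exp_le_one_iff.mpr (by nlinarith [sq_nonneg t])
  have h2 : 0 ≤ (√(2 * Real.pi))⁻¹ := by positivity
  calc _ ≤ 1 * 1 := mul_le_mul inv_sqrt_le_one h1 (Real.exp_nonneg _) zero_le_one
    _ = 1 := one_mul 1

lemma abs_mul_phi_le_one (t : ℝ) : |t| * phi t ≤ 1 := by
  rw [phi_eq]
  have h1 : |t| ≤ Real.exp (t ^ 2 / 2) := by
    have := Real.add_one_le_exp (t ^ 2 / 2)
    have h2 : |t| ≤ t ^ 2 / 2 + 1 := by
      have h3 : t ^ 2 = |t| ^ 2 := (sq_abs t).symm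
      rw [h3]
      nlinarith [sq_nonneg (|t| - 1)]
    linarith
  have h2 : |t| * Real.exp (-t ^ 2 / 2) ≤ 1 := by
    calc |t| * Real.exp (-t ^ 2 / 2) ≤ Real.exp (t ^ 2 / 2) * Real.exp (-t ^ 2 / 2) := by gcongr
      _ = 1 := by
        rw [← Real.exp_add]
        have : t ^ 2 / 2 + -t ^ 2 / 2 = 0 := by ring
        rw [this, Real.exp_zero]
  have h3 : 0 ≤ (√(2 * Real.pi))⁻¹ := by positivity
  have h4 : 0 ≤ |t| * Real.exp (-t ^ 2 / 2) := by positivity
  calc |t| * ((√(2 * Real.pi))⁻¹ * Real.exp (-t ^ 2 / 2))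
      = (√(2 * Real.pi))⁻¹ * (|t| * Real.exp (-t ^ 2 / 2)) := by ring
    _ ≤ 1 * 1 := mul_le_mul inv_sqrt_le_one h2 h4 zero_le_one
    _ = 1 := one_mul 1

/-- `|x|²`. -/
noncomputable def S {k : ℕ} (x : Fin k → ℝ) : ℝ := ∑ i, x i ^ 2

lemma S_nonneg {k : ℕ} (x : Fin k → ℝ) : 0 ≤ S x := Finset.sum_nonneg fun _ _ => sq_nonneg _

lemma integrable_exp_S {k : ℕ} {q : ℝ} (hq : q < 1) :
    Integrable (fun x : Fin k → ℝ => Real.exp (q / 2 * S x)) (G k) := by
  have h1 : Integrable (fun x : ℝ => Real.exp (q / 2 * x ^ 2)) (gaussianReal 0 1) := by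
    have h2 := (integrable_rho1 hq).const_mul (√(1 - q))⁻¹
    refine h2.congr (ae_of_all _ fun x => ?_)
    have : √(1 - q) ≠ 0 := (Real.sqrt_pos.mpr (by linarith)).ne'
    simp only [rho1]
    rw [← mul_assoc, inv_mul_cancel₀ this, one_mul]
    congr 1
    ring
  have h3 := Integrable.fintype_prod (ι := Fin k) (μ := fun _ => gaussianReal 0 1)
    (f := fun _ x => Real.exp (q / 2 * x ^ 2)) (fun _ => h1)
  refine h3.congr (ae_of_all _ fun x => ?_)
  simp only [S]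
  rw [← Real.exp_sum, Finset.mul_sum]

lemma integrable_poly_exp {k : ℕ} {q : ℝ} (hq : q < 1) :
    Integrable (fun x : Fin k → ℝ => (1 + S x) * Real.exp (q / 2 * S x)) (G k) := by
  set r : ℝ := (1 + q) / 2 with hr
  have hr1 : r < 1 := by rw [hr]; linarith
  have hqr : 0 < (r - q) / 2 := by rw [hr]; linarith
  have hm : Measurable (fun x : Fin k → ℝ => S x) := by unfold S; fun_prop
  refine ((integrable_exp_S (k := k) hr1).const_mul (1 + ((r - q) / 2)⁻¹)).mono'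
    (by fun_prop) (ae_of_all _ fun x => ?_)
  have hS := S_nonneg x
  rw [Real.norm_of_nonneg (by positivity)]
  have e : r / 2 * S x = (r - q) / 2 * S x + q / 2 * S x := by ring
  rw [e, Real.exp_add, ← mul_assoc]
  refine mul_le_mul_of_nonneg_right ?_ (Real.exp_nonneg _)
  have h1 := Real.add_one_le_exp ((r - q) / 2 * S x)
  have h2 : S x = ((r - q) / 2)⁻¹ * ((r - q) / 2 * S x) := by
    rw [← mul_assoc, inv_mul_cancel₀ hqr.ne', one_mul]
  have h3 : 0 ≤ (r - q) / 2 * S x := by positivity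
  have h4 : 0 < ((r - q) / 2)⁻¹ := inv_pos.mpr hqr
  nlinarith

lemma R_le {k : ℕ} {d : Fin k → ℝ} {v q : ℝ} (h0 : ∀ i, 0 ≤ v * d i) (h1 : ∀ i, v * d i ≤ q)
    (_hq : q < 1) (x : Fin k → ℝ) :
    R (fun i => v * d i) x ≤ Real.exp (q / 2 * S x) := by
  unfold R S
  rw [Finset.mul_sum, Real.exp_sum]
  refine Finset.prod_le_prod (fun i _ => rho1_nonneg _ _) fun i _ => ?_
  unfold rho1
  have h2 : √(1 - v * d i) ≤ 1 := by
    rw [Real.sqrt_le_left zero_le_one]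
    linarith [h0 i]
  calc √(1 - v * d i) * Real.exp (v * d i * x i ^ 2 / 2)
      ≤ 1 * Real.exp (v * d i * x i ^ 2 / 2) := by gcongr
    _ = Real.exp (v * d i * x i ^ 2 / 2) := one_mul _
    _ ≤ Real.exp (q / 2 * x i ^ 2) := by
      apply Real.exp_le_exp.mpr
      have := mul_le_mul_of_nonneg_right (h1 i) (sq_nonneg (x i))
      linarith

lemma psi_nonneg {k : ℕ} (d : Fin k → ℝ) (δ : ℝ) (x : Fin k → ℝ) : 0 ≤ psi d δ x :=
  Real.sqrt_nonneg _

lemma psi_le {k : ℕ} {d : Fin k → ℝ} (h0 : ∀ i, 0 ≤ d i) (h1 : ∀ i, d i ≤ 1) (δ : ℝ)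
    (x : Fin k → ℝ) : psi d δ x ≤ 1 + δ ^ 2 + S x := by
  unfold psi S
  have h2 : ∑ i, d i * x i ^ 2 ≤ ∑ i, x i ^ 2 := Finset.sum_le_sum fun i _ => by
    nlinarith [sq_nonneg (x i), h1 i, h0 i]
  have h3 : 0 ≤ ∑ i, d i * x i ^ 2 :=
    Finset.sum_nonneg fun i _ => mul_nonneg (h0 i) (sq_nonneg _)
  rw [Real.sqrt_le_left (by positivity)]
  nlinarith [sq_nonneg δ]

lemma measurable_psi {k : ℕ} (d : Fin k → ℝ) (δ : ℝ) : Measurable (psi d δ) := by
  unfold psi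
  fun_prop

/-- The `v`-derivative of the integrand of the path functional. -/
noncomputable def F' {k : ℕ} (d : Fin k → ℝ) (δ L ε : ℝ) (n : (Fin k → ℝ) → ℝ) (v : ℝ)
    (x : Fin k → ℝ) : ℝ :=
  R (fun i => v * d i) x * (1 / 2 * (∑ i, d i * x i ^ 2 - ∑ i, d i / (1 - v * d i)))
      * Phi (W d δ L ε n v x)
    + R (fun i => v * d i) x * (phi (W d δ L ε n v x) * W' d δ L ε n v x)

lemma hasDerivAt_F {k : ℕ} (d : Fin k → ℝ) (δ L ε : ℝ) (n : (Fin k → ℝ) → ℝ) {v : ℝ}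
    (hv : 0 < v) (h : ∀ i, v * d i < 1) (x : Fin k → ℝ) :
    HasDerivAt (fun v => R (fun i => v * d i) x * Phi (W d δ L ε n v x))
      (F' d δ L ε n v x) v := by
  have h1 := hasDerivAt_R d h x
  have h2 := (Phi_hasDerivAt (W d δ L ε n v x)).comp v (hasDerivAt_W d δ L ε n hv x)
  exact h1.mul h2

lemma Phi_nonneg (t : ℝ) : 0 ≤ Phi t := (Phi_pos t).le

lemma abs_F'_le {k : ℕ} {d : Fin k → ℝ} {δ L ε : ℝ} {n : (Fin k → ℝ) → ℝ} {D v0 v : ℝ}
    (hd0 : ∀ i, 0 ≤ d i) (hD : ∀ i, d i ≤ D) (hD0 : 0 ≤ D) (hD1 : D < 1) (hL : 0 ≤ L)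
    (hε : 0 ≤ ε) (hv0 : 0 < v0) (hv : v0 / 2 < v) (hv' : v < 1 + (1 - D) / 2) (x : Fin k → ℝ) :
    |F' d δ L ε n v x| ≤
      (1 / 2 * (1 + k * (1 / (1 - (1 + D) / 2)))
        + 1 / v0 * (1 + 4 * (2 + δ ^ 2) + 4 * (L * (v0 / 2) ^ (-(1 / 6) : ℝ) + ε)))
        * ((1 + S x) * Real.exp ((1 + D) / 2 / 2 * S x)) := by
  have hvp : 0 < v := by linarith
  have hv2 : v ≤ 2 := by linarith
  have hS := S_nonneg x
  have hq : ∀ i, v * d i ≤ (1 + D) / 2 := fun i => by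
    have h1 : v * d i ≤ v * D := by gcongr; exact hD i
    have h2 : v * D ≤ (1 + (1 - D) / 2) * D := by gcongr
    nlinarith [sq_nonneg (1 - D)]
  have hq1 : (1 + D) / 2 < 1 := by linarith
  have hR := R_le (x := x) (fun i => mul_nonneg hvp.le (hd0 i)) hq hq1
  have hR0 := R_nonneg (fun i => v * d i) x
  set Rv := R (fun i => v * d i) x
  set w := W d δ L ε n v x with hw
  have hP0 := Phi_nonneg w
  have hP1 : Phi w ≤ 1 := (Phi_lt_one w).le
  have hp0 : 0 ≤ phi w := (phi_pos w).le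
  have hp1 := phi_le_one w
  have hp2 := abs_mul_phi_le_one w
  -- first bracket
  have hA : |1 / 2 * (∑ i, d i * x i ^ 2 - ∑ i, d i / (1 - v * d i)) * Phi w|
      ≤ 1 / 2 * (1 + k * (1 / (1 - (1 + D) / 2))) * (1 + S x) := by
    have h1 : 0 ≤ ∑ i, d i * x i ^ 2 :=
      Finset.sum_nonneg fun i _ => mul_nonneg (hd0 i) (sq_nonneg _)
    have h2 : ∑ i, d i * x i ^ 2 ≤ S x := Finset.sum_le_sum fun i _ => by
      nlinarith [sq_nonneg (x i), hD i, hd0 i]
    have h3 : 0 ≤ ∑ i, d i / (1 - v * d i) := Finset.sum_nonneg fun i _ => by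
      have := hq i
      exact div_nonneg (hd0 i) (by linarith)
    have h4 : ∑ i, d i / (1 - v * d i) ≤ k * (1 / (1 - (1 + D) / 2)) := by
      calc ∑ i, d i / (1 - v * d i) ≤ ∑ _i : Fin k, 1 / (1 - (1 + D) / 2) :=
            Finset.sum_le_sum fun i _ => by
              have := hq i
              have h5 : 0 < 1 - (1 + D) / 2 := by linarith
              apply div_le_div₀ zero_le_one (by linarith [hD i]) h5 (by linarith)
        _ = k * (1 / (1 - (1 + D) / 2)) := by simp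
    set c0 := (k : ℝ) * (1 / (1 - (1 + D) / 2))
    have hc0 : 0 ≤ c0 := h3.trans h4
    rw [abs_mul, abs_mul, abs_of_nonneg hP0, abs_of_nonneg (by norm_num : (0:ℝ) ≤ 1 / 2)]
    have h5 : |∑ i, d i * x i ^ 2 - ∑ i, d i / (1 - v * d i)| ≤ S x + c0 := by
      rw [abs_le]
      constructor <;> linarith
    calc 1 / 2 * |∑ i, d i * x i ^ 2 - ∑ i, d i / (1 - v * d i)| * Phi w
        ≤ 1 / 2 * (S x + c0) * 1 := by gcongr
      _ ≤ 1 / 2 * (1 + c0) * (1 + S x) := by nlinarith [mul_nonneg hc0 hS]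
  have hB : |phi w * W' d δ L ε n v x|
      ≤ 1 / v0 * (1 + 4 * (2 + δ ^ 2) + 4 * (L * (v0 / 2) ^ (-(1 / 6) : ℝ) + ε)) * (1 + S x) := by
    unfold W'
    rw [← hw]
    have hpsi0 := psi_nonneg d δ x
    have hpsi := psi_le hd0 (fun i => (hD i).trans hD1.le) δ x
    set ps := psi d δ x
    have hs0 : 0 ≤ √v := Real.sqrt_nonneg v
    have hs2 : √v ≤ 2 := by
      rw [Real.sqrt_le_left (by norm_num)]
      linarith
    have hm : v ^ (-(1 / 6) : ℝ) ≤ (v0 / 2) ^ (-(1 / 6) : ℝ) :=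
      Real.rpow_le_rpow_of_nonpos (by linarith) hv.le (by norm_num)
    have hm0 : 0 ≤ v ^ (-(1 / 6) : ℝ) := Real.rpow_nonneg hvp.le _
    set m := v ^ (-(1 / 6) : ℝ)
    set m0 := (v0 / 2) ^ (-(1 / 6) : ℝ)
    have h1 : |phi w * (-(1 / (2 * v)) * (w - 2 * √v * ps + 2 * √v * (L * m + ε)))|
        ≤ 1 / (2 * v) * (|w| * phi w + 2 * √v * ps * phi w + 2 * √v * (L * m + ε) * phi w) := by
      have e1 : phi w * (-(1 / (2 * v)) * (w - 2 * √v * ps + 2 * √v * (L * m + ε)))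
          = -(1 / (2 * v)) * (w * phi w - 2 * √v * ps * phi w + 2 * √v * (L * m + ε) * phi w) := by
        ring
      rw [e1, abs_mul, abs_neg, abs_of_nonneg (by positivity : 0 ≤ 1 / (2 * v))]
      refine mul_le_mul_of_nonneg_left ?_ (by positivity)
      have e2 : |w| * phi w = |w * phi w| := by rw [abs_mul, abs_of_nonneg hp0]
      rw [e2]
      have g1 : 0 ≤ 2 * √v * ps * phi w := by positivity
      have g2 : 0 ≤ 2 * √v * (L * m + ε) * phi w := by positivity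
      calc |w * phi w - 2 * √v * ps * phi w + 2 * √v * (L * m + ε) * phi w|
          ≤ |w * phi w - 2 * √v * ps * phi w| + |2 * √v * (L * m + ε) * phi w| := abs_add_le _ _
        _ ≤ |w * phi w| + |2 * √v * ps * phi w| + |2 * √v * (L * m + ε) * phi w| := by
            gcongr
            exact abs_sub _ _
        _ = _ := by rw [abs_of_nonneg g1, abs_of_nonneg g2]
    refine h1.trans ?_
    have h2 : 1 / (2 * v) ≤ 1 / v0 := by
      apply one_div_le_one_div_of_le hv0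
      linarith
    have h3 : |w| * phi w + 2 * √v * ps * phi w + 2 * √v * (L * m + ε) * phi w
        ≤ 1 + 2 * 2 * (1 + δ ^ 2 + S x) * 1 + 2 * 2 * (L * m0 + ε) * 1 := by gcongr
    have h4 : 0 ≤ |w| * phi w + 2 * √v * ps * phi w + 2 * √v * (L * m + ε) * phi w := by
      positivity
    calc 1 / (2 * v) * (|w| * phi w + 2 * √v * ps * phi w + 2 * √v * (L * m + ε) * phi w)
        ≤ 1 / v0 * (1 + 2 * 2 * (1 + δ ^ 2 + S x) * 1 + 2 * 2 * (L * m0 + ε) * 1) := by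
          gcongr
      _ ≤ 1 / v0 * ((1 + 4 * (2 + δ ^ 2) + 4 * (L * m0 + ε)) * (1 + S x)) := by
          have hLm : 0 ≤ L * m0 + ε := by positivity
          gcongr
          nlinarith [mul_nonneg hLm hS, mul_nonneg (sq_nonneg δ) hS]
      _ = _ := by ring
  have e3 : F' d δ L ε n v x
      = Rv * (1 / 2 * (∑ i, d i * x i ^ 2 - ∑ i, d i / (1 - v * d i)) * Phi w
        + phi w * W' d δ L ε n v x) := by
    unfold F'
    ring
  rw [e3, abs_mul, abs_of_nonneg hR0]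
  calc Rv * |1 / 2 * (∑ i, d i * x i ^ 2 - ∑ i, d i / (1 - v * d i)) * Phi w
        + phi w * W' d δ L ε n v x|
      ≤ Real.exp ((1 + D) / 2 / 2 * S x)
        * (1 / 2 * (1 + k * (1 / (1 - (1 + D) / 2))) * (1 + S x)
          + 1 / v0 * (1 + 4 * (2 + δ ^ 2) + 4 * (L * (v0 / 2) ^ (-(1 / 6) : ℝ) + ε))
            * (1 + S x)) := by
        gcongr
        exact (abs_add_le _ _).trans (add_le_add hA hB)
    _ = _ := by ring

end Vale.Agent.P262.H733
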