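import Vale.Agent.P262.H733.Core

open MeasureTheory ProbabilityTheory Set Filter Topology
open Vale.Agent.P262.Ehr

namespace Vale.Agent.P262.H733

/-- If `f' > 0` at `a` then `f > f a` immediately to the right of `a`. -/
lemma eventually_gt_right {f : ℝ → ℝ} {f' a : ℝ} (h : HasDerivAt f f' a) (hf : 0 < f') :
    ∀ᶠ x in 𝓝[>] a, f a < f x := by
  have h1 := h.tendsto_slope
  have h2 : ∀ᶠ x in 𝓝[≠] a, 0 < slope f a x := h1.eventually (lt_mem_nhds hf)
  have h3 : ∀ᶠ x in 𝓝[>] a, 0 < slope f a x :=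
    h2.filter_mono (nhdsWithin_mono a fun x hx => ne_of_gt hx)
  filter_upwards [h3, self_mem_nhdsWithin] with x hx hxa
  rw [slope_def_field] at hx
  have h4 : 0 < x - a := sub_pos.mpr hxa
  have h5 : 0 < f x - f a := by
    by_contra hc
    have := div_nonpos_of_nonpos_of_nonneg (not_lt.mp hc) h4.le
    linarith
  linarith

/-- Continuity argument: a function which decreases strictly wherever it is at least `b` and which
is at least `b` at `1` is minimal at `1`. -/
lemma path_monotone {f f' : ℝ → ℝ} {b : ℝ} (hd : ∀ v, 0 < v → v ≤ 1 → HasDerivAt f (f' v) v)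
    (hneg : ∀ v, 0 < v → v ≤ 1 → b ≤ f v → f' v < 0) (h1 : b ≤ f 1) {v : ℝ} (hv : 0 < v)
    (hv1 : v ≤ 1) : f 1 ≤ f v := by
  set s : Set ℝ := {t | f 1 ≤ f (1 - t)} with hs
  have hcont : ContinuousOn (fun t => f (1 - t)) (Icc 0 (1 - v)) := by
    intro t ht
    have h2 : ContinuousAt f (1 - t) := (hd (1 - t) (by linarith [ht.2]) (by linarith [ht.1])).continuousAt
    exact (ContinuousAt.comp (f := fun t : ℝ => 1 - t) (g := f) h2
      (by fun_prop)).continuousWithinAt
  have hclosed : IsClosed (s ∩ Icc 0 (1 - v)) := by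
    have := hcont.preimage_isClosed_of_isClosed isClosed_Icc (isClosed_Ici (a := f 1))
    rw [inter_comm] at this
    exact this
  have h0 : (0 : ℝ) ∈ s := by
    rw [hs, mem_ofPred_eq, sub_zero]
  have key := hclosed.Icc_subset_of_forall_mem_nhdsWithin h0 fun t ht => by
    have ht1 : f 1 ≤ f (1 - t) := ht.1
    have hp : 0 < 1 - t := by linarith [ht.2.2]
    have hle : 1 - t ≤ 1 := by linarith [ht.2.1]
    have h3 := hd (1 - t) hp hle
    have h4 := hneg (1 - t) hp hle (h1.trans ht1)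
    have h5 : HasDerivAt (fun t => f (1 - t)) (-(f' (1 - t))) t := by
      have h6 := HasDerivAt.comp t h3 ((hasDerivAt_id t).const_sub 1)
      refine h6.congr_deriv ?_
      ring
    have h7 := eventually_gt_right h5 (by linarith)
    filter_upwards [h7] with x hx
    exact ht1.trans hx.le
  have h8 := key (show (1 - v) ∈ Icc 0 (1 - v) from ⟨by linarith, le_rfl⟩)
  rw [hs, mem_ofPred_eq] at h8
  simpa using h8

lemma tendsto_R {k : ℕ} (d : Fin k → ℝ) (x : Fin k → ℝ) :
    Tendsto (fun v : ℝ => R (fun i => v * d i) x) (𝓝 0) (𝓝 1) := by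
  have h1 : ∀ i, Tendsto (fun v : ℝ => rho1 (v * d i) (x i)) (𝓝 0) (𝓝 (rho1 (0 * d i) (x i))) := by
    intro i
    have : Continuous (fun v : ℝ => rho1 (v * d i) (x i)) := by
      unfold rho1
      fun_prop
    exact this.tendsto 0
  have h2 := tendsto_finsetProd Finset.univ fun i _ => h1 i
  have h3 : ∏ i, rho1 (0 * d i) (x i) = 1 := by
    apply Finset.prod_eq_one
    intro i _
    unfold rho1
    simp
  rw [h3] at h2
  exact h2

lemma cf_zero (L ε : ℝ) : cf L ε 0 = 6 / 5 * L + ε := by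
  unfold cf
  rw [Real.zero_rpow (by norm_num)]
  ring

lemma cf_one (L ε : ℝ) : cf L ε 1 = 0 := by
  unfold cf
  rw [Real.one_rpow]
  ring

lemma W_one {k : ℕ} (d : Fin k → ℝ) (δ L ε : ℝ) (n : (Fin k → ℝ) → ℝ) (x : Fin k → ℝ) :
    W d δ L ε n 1 x = n x := by
  unfold W
  rw [cf_one, Real.sqrt_one]
  ring

lemma tendsto_Phi_W {k : ℕ} (d : Fin k → ℝ) (δ L ε : ℝ) (n : (Fin k → ℝ) → ℝ) (x : Fin k → ℝ)
    (hx : n x - psi d δ x + (6 / 5 * L + ε) < 0) :
    Tendsto (fun v => Phi (W d δ L ε n v x)) (𝓝[>] 0) (𝓝 0) := by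
  refine Phi_tendsto_atBot.comp ?_
  have h1 : Tendsto (fun v : ℝ => n x - (1 - v) * psi d δ x + cf L ε v) (𝓝[>] 0)
      (𝓝 (n x - psi d δ x + (6 / 5 * L + ε))) := by
    have hc : ContinuousAt (fun v : ℝ => n x - (1 - v) * psi d δ x + cf L ε v) 0 := by
      have h2 : ContinuousAt (fun v : ℝ => v ^ (5 / 6 : ℝ)) 0 :=
        Real.continuousAt_rpow_const 0 (5 / 6) (Or.inr (by norm_num))
      unfold cf
      fun_prop
    have h3 := hc.tendsto
    simp only [sub_zero, one_mul, cf_zero] at h3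
    exact h3.mono_left nhdsWithin_le_nhds
  have h4 : Tendsto (fun v : ℝ => (√v)⁻¹) (𝓝[>] 0) atTop := by
    apply Tendsto.inv_tendsto_nhdsGT_zero
    rw [tendsto_nhdsWithin_iff]
    refine ⟨?_, ?_⟩
    · have := (Real.continuous_sqrt.tendsto 0).mono_left (nhdsWithin_le_nhds (s := Ioi (0 : ℝ)))
      rwa [Real.sqrt_zero] at this
    · filter_upwards [self_mem_nhdsWithin] with v hv
      exact Real.sqrt_pos.mpr hv
  have h5 := h1.neg_mul_atTop hx h4
  refine h5.congr fun v => ?_
  unfold W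
  rw [div_eq_mul_inv]

theorem core {k : ℕ} {d : Fin k → ℝ} {δ L ε D : ℝ} {n : (Fin k → ℝ) → ℝ}
    (hn : Measurable n) (hd0 : ∀ i, 0 ≤ d i) (hD : ∀ i, d i ≤ D) (hD0 : 0 ≤ D) (hD1 : D < 1)
    (hL : 0 ≤ L) (hδ : 0 ≤ δ) (hε : δ < ε)
    (hS : ∀ v, 0 < v → v ≤ 1 →
      1 / 2 ≤ ∫ z, Phi (W d δ L ε n v (T (fun i => v * d i) z)) ∂(G k) →
      SIneq (fun z => W d δ L ε n v (T (fun i => v * d i) z))
        (fun i => √(v * d i / (1 - v * d i))) (L * v ^ (1 / 3 : ℝ)))
    (h1 : 1 / 2 ≤ ∫ z, Phi (n (T d z)) ∂(G k)) :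
    ∫ z, Phi (n (T d z)) ∂(G k)
      ≤ (G k).real {x | 0 ≤ n x - psi d δ x + (6 / 5 * L + ε)} := by
  have hε0 : 0 ≤ ε := by linarith
  have hq1 : (1 + D) / 2 < 1 := by linarith
  have hqv : ∀ v, 0 ≤ v → v ≤ 1 → ∀ i, v * d i ≤ (1 + D) / 2 := fun v h0 h1 =>
    mul_le_q hD hD0 h0 (by linarith)
  -- `P v` in the coordinates `z`
  have hP : ∀ v, 0 < v → v ≤ 1 → P d δ L ε n v
      = ∫ z, Phi (W d δ L ε n v (T (fun i => v * d i) z)) ∂(G k) := by
    intro v hv hv1
    unfold P
    rw [integral_T (fun i => v * d i) (fun i => lt_of_le_of_lt (hqv v hv.le hv1 i) hq1)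
      (f := fun x => Phi (W d δ L ε n v x))
      (Phi_continuous.measurable.comp (measurable_W d δ L ε hn v))]
  have hP1 : P d δ L ε n 1 = ∫ z, Phi (n (T d z)) ∂(G k) := by
    rw [hP 1 one_pos le_rfl]
    simp only [W_one, one_mul]
  -- monotonicity
  have hmono : ∀ v, 0 < v → v ≤ 1 → P d δ L ε n 1 ≤ P d δ L ε n v := by
    intro v hv hv1
    refine path_monotone (f' := fun v => ∫ x, F' d δ L ε n v x ∂(G k)) (b := 1 / 2)
      (fun v h0 h1 => hasDerivAt_P hn hd0 hD hD0 hD1 hL hε0 h0 h1) (fun v h0 h1 hb => ?_)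
      (by rw [hP1]; exact h1) hv hv1
    rw [hP v h0 h1] at hb
    exact deriv_neg hn hd0 hD hD0 hD1 hL hδ hε h0 h1 (hS v h0 h1 hb)
  -- the limit
  classical
  set A : Set (Fin k → ℝ) := {x | 0 ≤ n x - psi d δ x + (6 / 5 * L + ε)} with hA
  have hmA : MeasurableSet A :=
    measurableSet_le measurable_const ((hn.sub (measurable_psi d δ)).add_const _)
  set g : ℝ → (Fin k → ℝ) → ℝ := fun v x =>
    R (fun i => v * d i) x * (if x ∈ A then 1 else Phi (W d δ L ε n v x)) with hg
  have hPg : ∀ v, 0 < v → v ≤ 1 → P d δ L ε n v ≤ ∫ x, g v x ∂(G k) := by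
    intro v hv hv1
    have he0 : ∀ i, 0 ≤ v * d i := fun i => mul_nonneg hv.le (hd0 i)
    have mP : Measurable fun x => Phi (W d δ L ε n v x) :=
      Phi_continuous.measurable.comp (measurable_W d δ L ε hn v)
    refine integral_mono ?_ ?_ fun x => ?_
    · refine integrable_R_mul (C := 1) he0 (hqv v hv.le hv1) hq1 mP fun x => ?_
      rw [abs_of_nonneg (Phi_nonneg _)]
      linarith [(Phi_lt_one (W d δ L ε n v x)).le, S_nonneg x]
    · refine integrable_R_mul (C := 1) he0 (hqv v hv.le hv1) hq1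
        (Measurable.ite hmA measurable_const mP) fun x => ?_
      have := S_nonneg x
      split_ifs
      · rw [abs_one]
        linarith
      · rw [abs_of_nonneg (Phi_nonneg _)]
        linarith [(Phi_lt_one (W d δ L ε n v x)).le]
    · refine mul_le_mul_of_nonneg_left ?_ (R_nonneg _ _)
      split_ifs
      · exact (Phi_lt_one _).le
      · exact le_rfl
  set vs : ℕ → ℝ := fun j => 1 / ((j : ℝ) + 1) with hvs
  have hvs0 : ∀ j, 0 < vs j := fun j => by rw [hvs]; positivity
  have hvs1 : ∀ j, vs j ≤ 1 := fun j => by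
    rw [hvs]
    simp only
    rw [div_le_one (by positivity)]
    linarith [Nat.cast_nonneg (α := ℝ) j]
  have hvslim : Tendsto vs atTop (𝓝 0) := tendsto_one_div_add_atTop_nhds_zero_nat
  have hvslim' : Tendsto vs atTop (𝓝[>] 0) := by
    rw [tendsto_nhdsWithin_iff]
    exact ⟨hvslim, Eventually.of_forall hvs0⟩
  have hlim : Tendsto (fun j => ∫ x, g (vs j) x ∂(G k)) atTop
      (𝓝 (∫ x, A.indicator (fun _ => (1 : ℝ)) x ∂(G k))) := by
    refine tendsto_integral_of_dominated_convergence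
      (fun x => (1 + S x) * Real.exp ((1 + D) / 2 / 2 * S x)) (fun j => ?_)
      (integrable_poly_exp hq1) (fun j => ae_of_all _ fun x => ?_) (ae_of_all _ fun x => ?_)
    · exact ((measurable_R _).mul (Measurable.ite hmA measurable_const
        (Phi_continuous.measurable.comp (measurable_W d δ L ε hn _)))).aestronglyMeasurable
    · have h2 := R_le (x := x) (fun i => mul_nonneg (hvs0 j).le (hd0 i))
        (hqv (vs j) (hvs0 j).le (hvs1 j)) hq1
      have h3 := S_nonneg x
      have h4 : |(if x ∈ A then (1 : ℝ) else Phi (W d δ L ε n (vs j) x))| ≤ 1 := by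
        split_ifs
        · rw [abs_one]
        · rw [abs_of_nonneg (Phi_nonneg _)]
          exact (Phi_lt_one _).le
      rw [Real.norm_eq_abs, hg]
      simp only
      rw [abs_mul, abs_of_nonneg (R_nonneg _ _)]
      calc R (fun i => vs j * d i) x * |(if x ∈ A then (1 : ℝ) else Phi (W d δ L ε n (vs j) x))|
          ≤ Real.exp ((1 + D) / 2 / 2 * S x) * 1 := by gcongr
        _ ≤ (1 + S x) * Real.exp ((1 + D) / 2 / 2 * S x) := by
          have := Real.exp_pos ((1 + D) / 2 / 2 * S x)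
          nlinarith
    · have hR := (tendsto_R d x).comp hvslim
      by_cases hx : x ∈ A
      · simp only [hg, hx, if_true, mul_one, indicator_of_mem]
        exact hR
      · have hx' : n x - psi d δ x + (6 / 5 * L + ε) < 0 := not_le.mp hx
        have h5 := (tendsto_Phi_W d δ L ε n x hx').comp hvslim'
        have h6 := hR.mul h5
        simp only [hg, hx, if_false, indicator_of_notMem, not_false_eq_true]
        simpa using h6
  have hle : P d δ L ε n 1 ≤ ∫ x, A.indicator (fun _ => (1 : ℝ)) x ∂(G k) :=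
    ge_of_tendsto' hlim fun j =>
      (hmono (vs j) (hvs0 j) (hvs1 j)).trans (hPg (vs j) (hvs0 j) (hvs1 j))
  have e1 : ∫ x, A.indicator (fun _ => (1 : ℝ)) x ∂(G k) = (G k).real A := by
    rw [integral_indicator_const _ hmA, smul_eq_mul, mul_one]
  rw [e1, hP1] at hle
  exact hle

/-- The hypothesis (S) for all real-valued concave functions. -/
def SHyp (k : ℕ) (K : ℝ) : Prop :=
  ∀ w : (Fin k → ℝ) → ℝ, ConcaveOn ℝ univ w → 1 / 2 ≤ ∫ z, Phi (w z) ∂(G k) →
    ∀ (al : Fin k → ℝ) (c : ℝ), 0 < c → c ≤ 1 → ∑ i, al i ^ 2 ≤ K * c ^ 3 → SIneq w al c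

/-- `psi d 0` as a norm of a linear image. -/
lemma convexOn_psi {k : ℕ} {d : Fin k → ℝ} (hd0 : ∀ i, 0 ≤ d i) :
    ConvexOn ℝ univ (psi d 0) := by
  let A : (Fin k → ℝ) →ₗ[ℝ] EuclideanSpace ℝ (Fin k) :=
    { toFun := fun x => WithLp.toLp 2 (fun i => √(d i) * x i)
      map_add' := fun x y => by
        ext i
        simp [mul_add]
      map_smul' := fun c x => by
        ext i
        simp only [Pi.smul_apply, smul_eq_mul, RingHom.id_apply, PiLp.smul_apply]
        ring }
  have h := (convexOn_univ_norm (E := EuclideanSpace ℝ (Fin k))).comp_linearMap A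
  have e : psi d 0 = norm ∘ A := by
    funext x
    simp only [Function.comp_apply, A, LinearMap.coe_mk, AddHom.coe_mk, EuclideanSpace.norm_eq,
      psi]
    congr 1
    rw [zero_pow (by norm_num), zero_add]
    refine Finset.sum_congr rfl fun i _ => ?_
    rw [Real.norm_eq_abs, sq_abs, mul_pow, Real.sq_sqrt (hd0 i)]
  rw [e]
  simpa using h

lemma concaveOn_W {k : ℕ} {d : Fin k → ℝ} (hd0 : ∀ i, 0 ≤ d i) {L ε v : ℝ}
    {n : (Fin k → ℝ) → ℝ} (hn : ConcaveOn ℝ univ n) (hv1 : v ≤ 1) (e : Fin k → ℝ) :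
    ConcaveOn ℝ univ (fun z => W d 0 L ε n v (T e z)) := by
  have h1 : ConcaveOn ℝ univ (W d 0 L ε n v) := by
    have h2 : ConvexOn ℝ univ (fun x => (1 - v) * psi d 0 x) := by
      have := (convexOn_psi hd0).smul (c := 1 - v) (by linarith)
      simpa [smul_eq_mul] using this
    have h3 : ConcaveOn ℝ univ (fun x => n x - (1 - v) * psi d 0 x + cf L ε v) :=
      (hn.sub h2).add_const _
    have h4 := h3.smul (c := (√v)⁻¹) (by positivity)
    have h5 : W d 0 L ε n v = fun x => (√v)⁻¹ • (n x - (1 - v) * psi d 0 x + cf L ε v) := by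
      funext x
      unfold W
      rw [smul_eq_mul, div_eq_inv_mul]
    rw [h5]
    exact h4
  refine ⟨convex_univ, fun x _ y _ a b ha hb hab => ?_⟩
  have h6 := h1.2 (mem_univ (T e x)) (mem_univ (T e y)) ha hb hab
  have e2 : T e (a • x + b • y) = a • T e x + b • T e y := by
    ext i
    simp only [T, Pi.add_apply, Pi.smul_apply, smul_eq_mul]
    ring
  rw [← e2] at h6
  exact h6

lemma continuous_of_concaveOn {k : ℕ} {n : (Fin k → ℝ) → ℝ} (hn : ConcaveOn ℝ univ n) :
    Continuous n := by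
  have := hn.continuousOn isOpen_univ
  rwa [continuousOn_univ] at this

lemma tendsto_real_of_antitone {k : ℕ} {f : (Fin k → ℝ) → ℝ} (hf : Measurable f) :
    Tendsto (fun j : ℕ => (G k).real {x | 0 ≤ f x + 1 / ((j : ℝ) + 1)}) atTop
      (𝓝 ((G k).real {x | 0 ≤ f x})) := by
  have hA : ∀ c : ℝ, MeasurableSet {x | 0 ≤ f x + c} := fun c =>
    measurableSet_le measurable_const (hf.add_const c)
  have h1 : Tendsto (fun j : ℕ => (G k) {x | 0 ≤ f x + 1 / ((j : ℝ) + 1)}) atTop
      (𝓝 ((G k) (⋂ j : ℕ, {x | 0 ≤ f x + 1 / ((j : ℝ) + 1)}))) := by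
    refine tendsto_measure_iInter_atTop (fun j => (hA _).nullMeasurableSet) ?_
      ⟨0, measure_ne_top _ _⟩
    intro i j hij x hx
    simp only [mem_ofPred_eq] at hx ⊢
    have : 1 / ((j : ℝ) + 1) ≤ 1 / ((i : ℝ) + 1) := by
      apply one_div_le_one_div_of_le (by positivity)
      have : (i : ℝ) ≤ j := Nat.cast_le.mpr hij
      linarith
    linarith
  have h2 : (⋂ j : ℕ, {x | 0 ≤ f x + 1 / ((j : ℝ) + 1)}) = {x | 0 ≤ f x} := by
    ext x
    simp only [mem_iInter, mem_ofPred_eq]
    constructor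
    · intro h
      have h3 : Tendsto (fun j : ℕ => f x + 1 / ((j : ℝ) + 1)) atTop (𝓝 (f x + 0)) :=
        tendsto_const_nhds.add tendsto_one_div_add_atTop_nhds_zero_nat
      rw [add_zero] at h3
      exact ge_of_tendsto' h3 h
    · intro h j
      positivity
  rw [h2] at h1
  exact (ENNReal.tendsto_toReal (measure_ne_top _ _)).comp h1

/-- **Step 2**: (S) implies (J2), in diagonal coordinates. -/
theorem J2diag {k : ℕ} {K : ℝ} (hS : SHyp k K) {b : Fin k → ℝ} (hb : ∀ i, 0 ≤ b i) {M : ℝ}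
    (hbM : ∑ i, b i ≤ M) (hM : 0 < M) (hMK : M ≤ K) {n : (Fin k → ℝ) → ℝ}
    (hn : ConcaveOn ℝ univ n) (h1 : 1 / 2 ≤ ∫ z, Phi (n fun i => √(1 + b i) * z i) ∂(G k)) :
    ∫ z, Phi (n fun i => √(1 + b i) * z i) ∂(G k)
      ≤ (G k).real {z | 0 ≤ n z - √(∑ i, b i / (1 + b i) * z i ^ 2)
        + 6 / 5 * (M / K) ^ (1 / 3 : ℝ)} := by
  have hK : 0 < K := lt_of_lt_of_le hM hMK
  set d : Fin k → ℝ := fun i => b i / (1 + b i) with hd
  have hd0 : ∀ i, 0 ≤ d i := fun i => div_nonneg (hb i) (by linarith [hb i])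
  have hbi : ∀ i, b i ≤ M := fun i =>
    (Finset.single_le_sum (fun j _ => hb j) (Finset.mem_univ i)).trans hbM
  have hD : ∀ i, d i ≤ M / (1 + M) := fun i => by
    rw [hd]
    simp only
    rw [div_le_div_iff₀ (by linarith [hb i]) (by linarith)]
    nlinarith [hbi i]
  have hD0 : 0 ≤ M / (1 + M) := by positivity
  have hD1 : M / (1 + M) < 1 := by rw [div_lt_one (by linarith)]; linarith
  have hdb : ∀ i, 1 - d i = (1 + b i)⁻¹ := fun i => by
    have : 1 + b i ≠ 0 := by linarith [hb i]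
    rw [hd]
    field_simp
    ring
  have hT : ∀ z : Fin k → ℝ, T d z = fun i => √(1 + b i) * z i := fun z => by
    funext i
    unfold T
    rw [hdb i, Real.sqrt_inv, inv_inv]
  set L : ℝ := (M / K) ^ (1 / 3 : ℝ) with hL
  have hL0 : 0 < L := Real.rpow_pos_of_pos (by positivity) _
  have hL1 : L ≤ 1 := Real.rpow_le_one (by positivity) ((div_le_one hK).mpr hMK) (by norm_num)
  have hL3 : L ^ 3 = M / K := by
    rw [hL, ← Real.rpow_natCast, ← Real.rpow_mul (by positivity)]
    norm_num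
  have hmain : ∀ ε : ℝ, 0 < ε → ∫ z, Phi (n fun i => √(1 + b i) * z i) ∂(G k)
      ≤ (G k).real {x | 0 ≤ n x - psi d 0 x + (6 / 5 * L + ε)} := by
    intro ε hε
    have h2 := core (n := n) (continuous_of_concaveOn hn).measurable hd0 hD hD0 hD1 hL0.le le_rfl
      hε (fun v hv0 hv1 hv2 => ?_) (by simp only [hT]; exact h1)
    · simp only [hT] at h2
      exact h2
    · refine hS _ (concaveOn_W hd0 hn hv1 _) hv2 _ _ (by positivity) ?_ ?_
      · calc L * v ^ (1 / 3 : ℝ) ≤ 1 * 1 := by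
              gcongr
              exact Real.rpow_le_one hv0.le hv1 (by norm_num)
          _ = 1 := one_mul 1
      · have h3 : (L * v ^ (1 / 3 : ℝ)) ^ 3 = M / K * v := by
          rw [mul_pow, hL3, ← Real.rpow_natCast (v ^ (1 / 3 : ℝ)), ← Real.rpow_mul hv0.le]
          norm_num
        rw [h3]
        have h4 : K * (M / K * v) = v * M := by
          field_simp
        rw [h4]
        calc ∑ i, √(v * d i / (1 - v * d i)) ^ 2 ≤ ∑ i, v * b i := by
              refine Finset.sum_le_sum fun i _ => ?_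
              have h5 : d i < 1 := lt_of_le_of_lt (hD i) hD1
              have h6 : v * d i ≤ d i := by nlinarith [hd0 i]
              have h7 : 0 < 1 - v * d i := by linarith
              rw [Real.sq_sqrt (div_nonneg (mul_nonneg hv0.le (hd0 i)) h7.le)]
              have h8 : b i = d i / (1 - d i) := by
                rw [hdb i, hd]
                have : 1 + b i ≠ 0 := by linarith [hb i]
                field_simp
              have h9 : 0 < 1 - d i := by linarith
              have h10 : v * b i = v * d i / (1 - d i) := by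
                calc v * b i = v * (d i / (1 - d i)) := by rw [← h8]
                  _ = v * d i / (1 - d i) := by ring
              rw [h10]
              exact div_le_div_of_nonneg_left (mul_nonneg hv0.le (hd0 i)) h9
                (show 1 - d i ≤ 1 - v * d i by linarith)
          _ = v * ∑ i, b i := (Finset.mul_sum _ _ _).symm
          _ ≤ v * M := by gcongr
  have hpsi : ∀ x : Fin k → ℝ, psi d 0 x = √(∑ i, b i / (1 + b i) * x i ^ 2) := fun x => by
    unfold psi
    rw [zero_pow (by norm_num), zero_add]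
  have hmeas : Measurable fun x => n x - psi d 0 x + 6 / 5 * L :=
    ((continuous_of_concaveOn hn).measurable.sub (measurable_psi d 0)).add_const _
  have hlim := tendsto_real_of_antitone hmeas
  have hfin := ge_of_tendsto' hlim fun j => by
    have h2 := hmain (1 / ((j : ℝ) + 1)) (by positivity)
    have e : {x : Fin k → ℝ | 0 ≤ n x - psi d 0 x + (6 / 5 * L + 1 / ((j : ℝ) + 1))}
        = {x | 0 ≤ n x - psi d 0 x + 6 / 5 * L + 1 / ((j : ℝ) + 1)} := by
      ext x
      simp only [mem_ofPred_eq, add_assoc]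
    rw [e] at h2
    exact h2
  simp only [hpsi] at hfin
  exact hfin

end Vale.Agent.P262.H733
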