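import Vale.Agent.P262.H733.Cov

open MeasureTheory ProbabilityTheory Set Filter Topology
open Vale.Agent.P262.Ehr

namespace Vale.Agent.P262.H733

/-- The smoothed norm `√(δ² + ⟨x, D x⟩)`, `D = diag d`. -/
noncomputable def psi {k : ℕ} (d : Fin k → ℝ) (δ : ℝ) (x : Fin k → ℝ) : ℝ :=
  √(δ ^ 2 + ∑ i, d i * x i ^ 2)

/-- The correction term of the path. -/
noncomputable def cf (L ε v : ℝ) : ℝ := 6 / 5 * L * (1 - v ^ (5 / 6 : ℝ)) + ε * (1 - v)

/-- The path of concave functions. -/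
noncomputable def W {k : ℕ} (d : Fin k → ℝ) (δ L ε : ℝ) (n : (Fin k → ℝ) → ℝ) (v : ℝ)
    (x : Fin k → ℝ) : ℝ :=
  (n x - (1 - v) * psi d δ x + cf L ε v) / √v

/-- The derivative of `W` in `v`. -/
noncomputable def W' {k : ℕ} (d : Fin k → ℝ) (δ L ε : ℝ) (n : (Fin k → ℝ) → ℝ) (v : ℝ)
    (x : Fin k → ℝ) : ℝ :=
  -(1 / (2 * v)) * (W d δ L ε n v x - 2 * √v * psi d δ x
    + 2 * √v * (L * v ^ (-(1 / 6) : ℝ) + ε))

lemma hasDerivAt_cf (L ε : ℝ) {v : ℝ} (hv : 0 < v) :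
    HasDerivAt (cf L ε) (-(L * v ^ (-(1 / 6) : ℝ) + ε)) v := by
  have h1 : HasDerivAt (fun v : ℝ => v ^ (5 / 6 : ℝ)) (5 / 6 * v ^ (5 / 6 - 1 : ℝ)) v :=
    Real.hasDerivAt_rpow_const (Or.inl hv.ne')
  have h2 := ((h1.const_sub 1).const_mul (6 / 5 * L)).add
    (((hasDerivAt_id v).const_sub 1).const_mul ε)
  have e1 : (5 / 6 - 1 : ℝ) = -(1 / 6) := by norm_num
  rw [e1] at h2
  refine h2.congr_deriv ?_
  ring

lemma hasDerivAt_W {k : ℕ} (d : Fin k → ℝ) (δ L ε : ℝ) (n : (Fin k → ℝ) → ℝ) {v : ℝ}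
    (hv : 0 < v) (x : Fin k → ℝ) :
    HasDerivAt (fun v => W d δ L ε n v x) (W' d δ L ε n v x) v := by
  have h1 : HasDerivAt (fun v => n x - (1 - v) * psi d δ x + cf L ε v)
      (psi d δ x - (L * v ^ (-(1 / 6) : ℝ) + ε)) v := by
    have h2 := ((((hasDerivAt_id v).const_sub 1).mul_const (psi d δ x)).const_sub (n x)).add
      (hasDerivAt_cf L ε hv)
    refine h2.congr_deriv ?_
    ring
  have h3 := h1.div ((hasDerivAt_id v).sqrt hv.ne') (Real.sqrt_pos.mpr hv).ne'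
  refine h3.congr_deriv ?_
  unfold W' W
  simp only [id]
  have hs : 0 < √v := Real.sqrt_pos.mpr hv
  have hsq : √v ^ 2 = v := Real.sq_sqrt hv.le
  generalize (L * v ^ (-(1 / 6) : ℝ) + ε) = q
  generalize n x - (1 - v) * psi d δ x + cf L ε v = A
  generalize psi d δ x = B
  have hv2 : v = √v ^ 2 := hsq.symm
  generalize √v = s at *
  subst hv2
  field_simp
  ring

lemma hasDerivAt_rho1 {d v : ℝ} (h : v * d < 1) (x : ℝ) :
    HasDerivAt (fun v => rho1 (v * d) x)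
      (rho1 (v * d) x * (1 / 2 * (d * x ^ 2 - d / (1 - v * d)))) v := by
  have h0 : 0 < 1 - v * d := by linarith
  have h1 : HasDerivAt (fun v : ℝ => 1 - v * d) (-d) v := by
    have := ((hasDerivAt_id v).mul_const d).const_sub 1
    refine this.congr_deriv ?_
    ring
  have h2 := h1.sqrt h0.ne'
  have h3 : HasDerivAt (fun v : ℝ => v * d * x ^ 2 / 2) (d * x ^ 2 / 2) v := by
    have := (((hasDerivAt_id v).mul_const d).mul_const (x ^ 2)).div_const 2
    refine this.congr_deriv ?_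
    ring
  have h4 := h2.mul h3.exp
  refine h4.congr_deriv ?_
  unfold rho1
  have hs : 0 < √(1 - v * d) := Real.sqrt_pos.mpr h0
  have hsq : √(1 - v * d) ^ 2 = 1 - v * d := Real.sq_sqrt h0.le
  generalize Real.exp (v * d * x ^ 2 / 2) = E
  rw [← hsq]
  have e : √(√(1 - v * d) ^ 2) = √(1 - v * d) := Real.sqrt_sq hs.le
  rw [e]
  generalize √(1 - v * d) = s at *
  field_simp
  ring

lemma hasDerivAt_R {k : ℕ} (d : Fin k → ℝ) {v : ℝ} (h : ∀ i, v * d i < 1) (x : Fin k → ℝ) :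
    HasDerivAt (fun v => R (fun i => v * d i) x)
      (R (fun i => v * d i) x
        * (1 / 2 * (∑ i, d i * x i ^ 2 - ∑ i, d i / (1 - v * d i)))) v := by
  classical
  have h1 := HasDerivAt.fun_finsetProd (u := (Finset.univ : Finset (Fin k)))
    (f := fun i v => rho1 (v * d i) (x i)) (fun i _ => hasDerivAt_rho1 (h i) (x i))
  refine h1.congr_deriv ?_
  unfold R
  rw [← Finset.sum_sub_distrib, Finset.mul_sum, Finset.mul_sum]
  refine Finset.sum_congr rfl fun i _ => ?_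
  rw [smul_eq_mul, ← mul_assoc, mul_comm _ (rho1 (v * d i) (x i)),
    Finset.mul_prod_erase Finset.univ (fun i => rho1 (v * d i) (x i)) (Finset.mem_univ i)]

end Vale.Agent.P262.H733
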